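import Vale.Agent.P106.U.H652.Fin
import Vale.Agent.P106.U.H480.Tot
import Vale.Agent.P106.U.H61.NrmDefs
import Vale.Agent.P106.U.H864.Ax
import Vale.Agent.P106.U.H523.Best

/-!
# P106 / U / S5 : composition (helper336's TEXT S5 v2, note 18787), top level with an ABSTRACT run (helper611)

Order of constants (notes 18523, 19191): `lam, β0, N` → `η`, `K1` → `θ` → `δ1` → accuracy `ε` → thresholds `ρ = (cr, c', J)` →
`d, k0` → `k, β, b' = β + d, c` (given; after the normal form the class is `100`) → `m` → `B` → `Rm` → `h`.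

* `Bs` : base constants, `Cst` = `σ` : constants fixed before the accuracy, `Thr` = `ρ` : thresholds of the two words, `Gv` = `g` : price, rates.
* normal form of the start : helper61's `H61.Nrm`, `H61.PNrm`.
* `SatOut` : the result of the saturation, in the form of 480's `tot` (random start label `A`).
* `RunP` : type of a record of a run; `RA` = run with exit by the time (last precision `Rn`; `Rn = q` if the end is `W`), `RR` =
  run with exit by the precision.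
* `PRun RA RR`, `PSat RA`, `PTop RA`, `PExR RR` : the inputs; `pCmp_of`.
-/

set_option autoImplicit false

namespace Vale.Agent.P106.U.S5

open Vale.Agent.P127 Vale.Agent.P127.Stk Vale.Agent.P127.U Vale.Agent.P106.W Vale.Agent.P106.K Vale.Agent.P106.U
open Vale.Agent.P106.U.H652

/-! ### constants -/

/-- base constants -/
structure Bs where
  lam : ℝ
  N : ℝ
  β0 : ℝ
  /-- constant of the start slab -/
  K0 : ℝ
  /-- `q ≤ r0 + K1 h` -/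
  K1 : ℝ

structure Bs.Ok (b : Bs) : Prop where
  lam0 : 0 < b.lam
  lam1 : b.lam < 1
  lamβ : b.lam < b.β0
  β2 : b.β0 ≤ 2
  N2 : 2 ≤ b.N
  K00 : 0 ≤ b.K0
  K10 : 0 < b.K1

/-- constant of SUB at a level -/
noncomputable def Bs.C1 (b : Bs) : ℝ := 1000 / b.lam + 1

/-- constants fixed before the accuracy -/
structure Cst extends Bs where
  /-- the exit by the precision is impossible before `(1 - θ) h` -/
  θ : ℝ
  /-- the caps are at most `δ1 h` -/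
  δ1 : ℝ

structure Cst.Ok (σ : Cst) : Prop where
  bs : σ.toBs.Ok
  θ0 : 0 < σ.θ
  θ4 : σ.θ ≤ 1 / 4
  δ0 : 0 < σ.δ1
  δθ : 8 * σ.δ1 ≤ σ.θ
  δC : 40 * σ.C1 * σ.δ1 ≤ 1

/-- relative thresholds, chosen after the accuracy -/
structure Thr where
  /-- a block is cheap if its probability is at least `2^(-cr m)` -/
  cr : ℝ
  /-- word 2 : known = probability `≥ 1 - c'` -/
  c' : ℝ
  /-- class of the slabs and cells of the path -/
  K : ℝ
  /-- lookahead: number of steps in which each of the two precisions advances -/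
  J : ℕ

structure Thr.Ok (ρ : Thr) : Prop where
  cr0 : 0 < ρ.cr
  cr1 : ρ.cr ≤ 1
  c'0 : 0 < ρ.c'
  c'1 : ρ.c' ≤ 1 / 4
  K1 : 1 ≤ ρ.K
  /-- the class is an absolute number -/
  K2 : ρ.K ≤ 10 ^ 15
  J0 : 1 ≤ ρ.J

/-- given after the thresholds: price, rate, rate of `FIX` -/
structure Gv where
  k : ℝ
  β : ℝ
  b' : ℝ

structure Gv.Ok (σ : Cst) (ε : ℝ) (g : Gv) : Prop where
  k0 : 0 < g.k
  kε : g.k ≤ ε
  β0 : σ.β0 ≤ g.β
  βb : g.β ≤ g.b'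
  bε : g.b' ≤ g.β + ε
  b3 : g.b' ≤ 3
  fix : FIXA σ.lam σ.N (8 * g.k) g.b'

/-! ### the objects -/

/-- **result of the saturation** : label `A` of level `a` and shape `(0, r)`, letters `E0` (start), `En` (end), `Y` (directions);
`Rn` = last precision of the path -/
def SatOut (η cA : ℝ) {Ω : Type} [Fintype Ω] (Q : Law Ω) (l : Ω → Ry) (t : Ω → ℝ) (L h q Rn : ℕ) (W : Ω → Cbx) : Prop :=
  ∃ (a r : ℕ) (A : Ω → Cbx) (ζ0 ζn υ : Type) (E0 : Ω → ζ0) (En : Ω → ζn) (Y : Ω → υ),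
    (a : ℝ) ≤ η * h ∧ a ≤ h ∧ r ≤ q ∧
    (∀ ω, 0 < Q.w ω → LbOk cA L a (A ω) (l ω) (t ω) ∧ (A ω).u2 = 1 ∧ (A ω).u1 = (1 / 2 : ℝ) ^ r) ∧
    Stk.hc Q (fun ω => (A ω, fl1 a (t ω), ())) E0 + Stk.hc Q Y (fun ω => (W ω, fl1 h (t ω), ())) +
      Stk.hc Q (fun ω => (En ω, E0 ω)) (fun ω => (Y ω, W ω, fl1 h (t ω), ())) ≤ η * h ∧
    (3 * ((h : ℝ) - a) + ((Rn : ℝ) - r)) * Real.log 2 - η * h ≤ mi Q l En E0

/-- a record of a run: constants, accuracy, thresholds, given numbers, block length `m`, window of caps `B`, the law, the rays,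
the times, `L h q`, start precision `r0`, last precision `Rn`, end labels, start slab -/
abbrev RunP : Type 1 :=
  Cst → ℝ → Thr → Gv → (m B : ℕ) → ∀ {Ω : Type} [Fintype Ω], Law Ω → (Ω → Ry) → (Ω → ℝ) → (L h q r0 Rn : ℕ) → (Ω → Cbx) →
    Cbx → Prop

/-! ### the inputs -/

/-- **[RUN]** the two words, the selection, the activity (on a new system) -/
def PRun (RA RR : RunP) : Prop :=
  ∀ σ : Cst, σ.Ok → ∀ ε : ℝ, 0 < ε → ∃ ρ : Thr, ρ.Ok ∧ ∃ d1 : ℝ, 0 < d1 ∧ ∀ g : Gv, g.Ok σ d1 → ∃ m0 : ℕ, ∀ m : ℕ, m0 ≤ m →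
    ∃ B0 : ℕ, ∀ B : ℕ, B0 ≤ B → ∃ Rm : ℕ, ∀ h1 : ℕ, ∃ h0 : ℕ, ∀ (Ω : Type) [Fintype Ω] (P : Law Ω) (l : Ω → Ry) (t : Ω → ℝ) (L h q r0 : ℕ) (W : Ω → Cbx)
      (S : Cbx), h0 ≤ h → H61.Nrm σ.K0 σ.K1 Rm σ.lam σ.N g.k g.β d1 P l t L h q r0 W S →
      ∃ (Ω' : Type) (_ : Fintype Ω') (Q : Law Ω') (l' : Ω' → Ry) (t' : Ω' → ℝ) (L' h' q' r0' Rn : ℕ) (W' : Ω' → Cbx) (S' : Cbx),
        h1 ≤ h' ∧ NEx 100 σ.lam σ.N g.k g.β ε Q l' t' (fun _ => ()) L' h' q' W' ∧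
        (RA σ ε ρ g m B Q l' t' L' h' q' r0' Rn W' S' ∨ RR σ ε ρ g m B Q l' t' L' h' q' r0' Rn W' S')

/-- **[SAT]** (MIC) -/
def PSat (RA : RunP) : Prop :=
  ∀ b : Bs, b.Ok → ∀ η : ℝ, 0 < η → ∃ θ0 : ℝ, 0 < θ0 ∧ ∀ θ : ℝ, 0 < θ → θ ≤ θ0 → ∃ δ0 : ℝ, 0 < δ0 ∧ ∀ δ1 : ℝ, 0 < δ1 → δ1 ≤ δ0 →
    ∀ σ : Cst, σ = ⟨b, θ, δ1⟩ → σ.Ok → ∃ ε0 : ℝ, 0 < ε0 ∧ ∀ ε : ℝ, 0 < ε → ε ≤ ε0 →
    ∀ ρ : Thr, ρ.Ok → ∀ g : Gv, g.Ok σ ε → ∃ cA : ℝ, 1 ≤ cA ∧ ∃ m0 : ℕ, ∀ m : ℕ, m0 ≤ m →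
    ∃ B0 : ℕ, ∀ B : ℕ, B0 ≤ B → ∃ h0 : ℕ,
      ∀ (Ω : Type) [Fintype Ω] (Q : Law Ω) (l : Ω → Ry) (t : Ω → ℝ) (L h q r0 Rn : ℕ) (W : Ω → Cbx) (S : Cbx),
        h0 ≤ h → NEx 100 σ.lam σ.N g.k g.β ε Q l t (fun _ => ()) L h q W → RA σ ε ρ g m B Q l t L h q r0 Rn W S →
        SatOut η cA Q l t L h q Rn W

/-- **[TOP]** exit by the time: the path has almost the full precision -/
def PTop (RA : RunP) : Prop :=
  ∀ b : Bs, b.Ok → ∀ η : ℝ, 0 < η → ∃ θ0 : ℝ, 0 < θ0 ∧ ∀ θ : ℝ, 0 < θ → θ ≤ θ0 → ∃ δ0 : ℝ, 0 < δ0 ∧ ∀ δ1 : ℝ, 0 < δ1 → δ1 ≤ δ0 →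
    ∀ σ : Cst, σ = ⟨b, θ, δ1⟩ → σ.Ok → ∃ ε0 : ℝ, 0 < ε0 ∧ ∀ ε : ℝ, 0 < ε → ε ≤ ε0 →
    ∀ ρ : Thr, ρ.Ok → ∀ g : Gv, g.Ok σ ε → ∃ m0 : ℕ, ∀ m B : ℕ, m0 ≤ m → ∃ h0 : ℕ,
      ∀ (Ω : Type) [Fintype Ω] (Q : Law Ω) (l : Ω → Ry) (t : Ω → ℝ) (L h q r0 Rn : ℕ) (W : Ω → Cbx) (S : Cbx),
        h0 ≤ h → NEx 100 σ.lam σ.N g.k g.β ε Q l t (fun _ => ()) L h q W → RA σ ε ρ g m B Q l t L h q r0 Rn W S →
        (q : ℝ) ≤ Rn + η * h

/-- **[EXR]** no exit by the precision (END7) -/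
def PExR (RR : RunP) : Prop :=
  ∀ b : Bs, b.Ok → ∀ θ : ℝ, 0 < θ → θ ≤ 1 / 4 → ∃ δ0 : ℝ, 0 < δ0 ∧ ∀ δ1 : ℝ, 0 < δ1 → δ1 ≤ δ0 →
    ∀ σ : Cst, σ = ⟨b, θ, δ1⟩ → σ.Ok → ∃ ε0 : ℝ, 0 < ε0 ∧ ∀ ε : ℝ, 0 < ε → ε ≤ ε0 →
    ∀ ρ : Thr, ρ.Ok → ∀ g : Gv, g.Ok σ ε → ∃ m0 : ℕ, ∀ m B : ℕ, m0 ≤ m → ∃ h0 : ℕ,
      ∀ (Ω : Type) [Fintype Ω] (Q : Law Ω) (l : Ω → Ry) (t : Ω → ℝ) (L h q r0 Rn : ℕ) (W : Ω → Cbx) (S : Cbx),
        h0 ≤ h → NEx 100 σ.lam σ.N g.k g.β ε Q l t (fun _ => ()) L h q W → RR σ ε ρ g m B Q l t L h q r0 Rn W S → False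

/-! ### the arithmetic -/

/-- the final inequality: `X = q - r`, `Rn = R - r`, `I` the information -/
theorem arith {lam k β β0 b' ε η h a X R I K DN E : ℝ} (hη : 0 < η) (h32 : 32 * η ≤ β0) (hε : 32 * ε ≤ β0)
    (hβ : β0 ≤ β) (hb' : b' ≤ 4) (hk : 8 * k ≤ lam) (hX : 0 ≤ X) (ha0 : 0 ≤ a) (ha : a ≤ η * h) (hh : 0 < h)
    (hR : X ≤ R + η * h) (hK : 8 * K < β0 * h) (hDN : 0 ≤ DN) (hE : E ≤ η * h)
    (hsat : (3 * (h - a) + R) * Real.log 2 - η * h ≤ I)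
    (hbas : I ≤ (3 * (h - a) + (1 - lam) * X) * Real.log 2 - (β - ε) * h * Real.log 2 + (b' + 1) * a * Real.log 2 - DN +
      8 * k * X * Real.log 2 + E + K) : False := by
  have l1 : (1 / 2 : ℝ) < Real.log 2 := by
    have := Real.log_two_gt_d9
    linarith
  have l2 : Real.log 2 < 1 := by
    have := Real.log_two_lt_d9
    linarith
  set L := Real.log 2 with hL
  have hL0 : 0 < L := by linarith
  have e1 : (b' + 1) * a ≤ 5 * (η * h) := by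
    have : (b' + 1) * a ≤ 5 * a := mul_le_mul_of_nonneg_right (by linarith) ha0
    linarith
  have e1' := mul_le_mul_of_nonneg_right e1 hL0.le
  have e2 : 0 ≤ (lam - 8 * k) * X := mul_nonneg (by linarith) hX
  have e2' := mul_nonneg e2 hL0.le
  have e3 : X * L ≤ (R + η * h) * L := mul_le_mul_of_nonneg_right hR hL0.le
  have hηh : 0 < η * h := mul_pos hη hh
  have e4 : η * h ≤ 2 * (η * h) * L := by nlinarith
  have e5 : ε * h ≤ β0 / 32 * h := mul_le_mul_of_nonneg_right (by linarith) hh.le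
  have e6 : η * h ≤ β0 / 32 * h := mul_le_mul_of_nonneg_right (by linarith) hh.le
  have e7 : β0 * h ≤ β * h := mul_le_mul_of_nonneg_right hβ hh.le
  have e8 : (β - ε) * h * L = β * h * L - ε * h * L := by ring
  have e9 := mul_le_mul_of_nonneg_right e5 hL0.le
  have e10 := mul_le_mul_of_nonneg_right e6 hL0.le
  have e11 := mul_le_mul_of_nonneg_right e7 hL0.le
  have hβ0h : 0 < β0 * h := by nlinarith
  have e12 : β0 * h * (1 / 2) ≤ β0 * h * L := mul_le_mul_of_nonneg_left l1.le hβ0h.le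
  nlinarith

/-! ### the composition -/

/-- **composition** -/
theorem pCmp_of {N : ℝ} (hN : 2 ≤ N) {RA RR : RunP} (h1 : H61.PNrm) (h2 : PRun RA RR) (h3 : PSat RA) (h4 : PTop RA)
    (h5 : PExR RR) : PCmp N := by
  intro lam β₀ hl hl1 hβ
  rcases lt_or_ge 2 β₀ with hβ2 | hβ2
  · refine ⟨(β₀ - 2) / 4, 1, by linarith, one_pos, ?_⟩
    intro k β hk hk2 hβ1 hβ3
    exfalso
    linarith
  have hβpos : 0 < β₀ := hl.trans hβ
  set η : ℝ := β₀ / 32 with hη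
  have hη0 : 0 < η := by positivity
  obtain ⟨K0, hK00, h1⟩ := h1
  obtain ⟨K1, hK1, h1⟩ := h1 lam N β₀ hl hl1 hβ hN
  set b : Bs := ⟨lam, N, β₀, K0, K1⟩ with hb
  have hbO : b.Ok := ⟨hl, hl1, hβ, hβ2, hN, hK00, hK1⟩
  obtain ⟨θS, hθS, h3⟩ := h3 b hbO η hη0
  obtain ⟨θT, hθT, h4⟩ := h4 b hbO η hη0
  set θ : ℝ := min (min θS θT) (1 / 4) with hθ
  have hθ0 : 0 < θ := by positivity
  have hθ4 : θ ≤ 1 / 4 := min_le_right _ _
  obtain ⟨δS, hδS, h3⟩ := h3 θ hθ0 ((min_le_left _ _).trans (min_le_left _ _))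
  obtain ⟨δT, hδT, h4⟩ := h4 θ hθ0 ((min_le_left _ _).trans (min_le_right _ _))
  obtain ⟨δR, hδR, h5⟩ := h5 b hbO θ hθ0 hθ4
  have hC1 : 0 < b.C1 := by
    show 0 < 1000 / lam + 1
    positivity
  set δ : ℝ := min (min δS δT) (min δR (min (θ / 8) (1 / (40 * b.C1)))) with hδ
  have hδ0 : 0 < δ := by positivity
  have hδa : δ ≤ δS := (min_le_left _ _).trans (min_le_left _ _)
  have hδb : δ ≤ δT := (min_le_left _ _).trans (min_le_right _ _)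
  have hδc : δ ≤ δR := (min_le_right _ _).trans (min_le_left _ _)
  have hδd : δ ≤ θ / 8 := (min_le_right _ _).trans ((min_le_right _ _).trans (min_le_left _ _))
  have hδe : δ ≤ 1 / (40 * b.C1) := (min_le_right _ _).trans ((min_le_right _ _).trans (min_le_right _ _))
  set σ : Cst := ⟨b, θ, δ⟩ with hσ
  have hσO : σ.Ok := ⟨hbO, hθ0, hθ4, hδ0, by show 8 * δ ≤ θ; linarith, by
    show 40 * b.C1 * δ ≤ 1
    rw [le_div_iff₀ (by positivity)] at hδe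
    linarith⟩
  obtain ⟨ε1, hε1, h3⟩ := h3 δ hδ0 hδa σ rfl hσO
  obtain ⟨ε2, hε2, h4⟩ := h4 δ hδ0 hδb σ rfl hσO
  obtain ⟨ε3, hε3, h5⟩ := h5 δ hδ0 hδc σ rfl hσO
  set ε : ℝ := min (min ε1 ε2) (min ε3 (min (β₀ / 32) (1 / 8))) with hε
  have hε0 : 0 < ε := by positivity
  have hεa : ε ≤ ε1 := (min_le_left _ _).trans (min_le_left _ _)
  have hεb : ε ≤ ε2 := (min_le_left _ _).trans (min_le_right _ _)
  have hεc : ε ≤ ε3 := (min_le_right _ _).trans (min_le_left _ _)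
  have hεd : ε ≤ β₀ / 32 := (min_le_right _ _).trans ((min_le_right _ _).trans (min_le_left _ _))
  have hεe : ε ≤ 1 / 8 := (min_le_right _ _).trans ((min_le_right _ _).trans (min_le_right _ _))
  obtain ⟨ρ, hρ, d1, hd1, h2⟩ := h2 σ hσO ε hε0
  -- the normal form with the defect `min d1 (1 / 2)`
  set d2 : ℝ := min d1 (1 / 2) with hd2
  have hd20 : 0 < d2 := by positivity
  obtain ⟨d0, hd0, h1⟩ := h1 d2 hd20
  set dm : ℝ := min (min d0 d1) (min ε (lam / 8)) with hdm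
  have hdm0 : 0 < dm := by positivity
  have hdma : dm ≤ d0 := (min_le_left _ _).trans (min_le_left _ _)
  have hdmb : dm ≤ d1 := (min_le_left _ _).trans (min_le_right _ _)
  have hdmc : dm ≤ ε := (min_le_right _ _).trans (min_le_left _ _)
  have hdmd : dm ≤ lam / 8 := (min_le_right _ _).trans (min_le_right _ _)
  refine ⟨dm, dm, hdm0, hdm0, ?_⟩
  intro k β hk hkm hβ1 hβ3 hF c hc
  have hb3 : β + dm ≤ 3 := by linarith
  have hF1 : FIXA lam N (4 * (k / 1024)) (β + dm) := H523.FIXA_mono hl.le hl1.le (by positivity) (by linarith) hF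
  have h1 := h1 (k / 1024) β (β + dm) (by positivity) (by linarith) hβ1 (by linarith) (by linarith) hb3 hF1 c hc
  set g : Gv := ⟨2 * (k / 1024), β, β + dm⟩ with hg
  have hFg : FIXA lam N (8 * (2 * (k / 1024))) (β + dm) :=
    H523.FIXA_mono hl.le hl1.le (by positivity) (by linarith) hF
  have hgO : ∀ x : ℝ, dm ≤ x → g.Ok σ x := fun x hx =>
    ⟨by show 0 < 2 * (k / 1024); positivity, by show 2 * (k / 1024) ≤ x; linarith, hβ1, by show β ≤ β + dm; linarith,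
      by show β + dm ≤ β + x; linarith, hb3, hFg⟩
  obtain ⟨m2, h2⟩ := h2 g (hgO d1 hdmb)
  obtain ⟨cA, hcA, m3, h3⟩ := h3 ε hε0 hεa ρ hρ g (hgO ε hdmc)
  obtain ⟨m4, h4⟩ := h4 ε hε0 hεb ρ hρ g (hgO ε hdmc)
  obtain ⟨m5, h5⟩ := h5 ε hε0 hεc ρ hρ g (hgO ε hdmc)
  set m : ℕ := max (max m2 m3) (max m4 m5) with hm
  obtain ⟨B3, h3⟩ := h3 m ((le_max_right _ _).trans (le_max_left _ _))
  obtain ⟨B2, h2⟩ := h2 m ((le_max_left _ _).trans (le_max_left _ _))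
  set B : ℕ := max B3 B2 with hB
  obtain ⟨n3, h3⟩ := h3 B (le_max_left _ _)
  obtain ⟨Rm, h2⟩ := h2 B (le_max_right _ _)
  obtain ⟨n4, h4⟩ := h4 m B ((le_max_left _ _).trans (le_max_right _ _))
  obtain ⟨n5, h5⟩ := h5 m B ((le_max_right _ _).trans (le_max_right _ _))
  -- `tot`
  obtain ⟨K, hK0, htot⟩ := G480.tot lam N (2 * (k / 1024)) (8 * (2 * (k / 1024))) β (β + dm) hl.le hl1.le (by positivity)
    (by linarith) (by linarith) hFg 100 (max cA 100) (by norm_num) (le_max_right _ _) 1 one_pos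
  obtain ⟨n6, hn6⟩ := exists_nat_gt (8 * K / β₀)
  obtain ⟨n2, h2⟩ := h2 (max (max n3 (max n4 n5)) (max n6 1))
  obtain ⟨n1, h1⟩ := h1 Rm
  refine ⟨max n1 (2 * n2), ?_⟩
  intro Ω _ γ P l t C L h q W hh hne
  have hdk : dm ≤ d0 := hdma
  have hne' : NEx c lam N (k / 1024) β d0 P l t C L h q W := by
    refine ⟨hne.ok, hne.hL, hne.lb, le_trans ?_ hne.ex⟩
    have f1 : (β - d0) * h * Real.log 2 ≤ (β - dm) * h * Real.log 2 := by
      have := Real.log_nonneg (show (1 : ℝ) ≤ 2 by norm_num)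
      gcongr
    linarith
  obtain ⟨P', l', t', L', h', q', r0, W', S, g1, g2, hN'⟩ := h1 Ω γ P l t C L h q W ((le_max_left _ _).trans hh) hne'
  have hh2 : n2 ≤ h' := by
    have e1 : (1 / 2 : ℝ) * h ≤ (1 - d2) * h := by
      have : d2 ≤ 1 / 2 := min_le_right _ _
      have h0 : (0 : ℝ) ≤ h := Nat.cast_nonneg _
      nlinarith
    have e2 : ((2 * n2 : ℕ) : ℝ) ≤ h := by exact_mod_cast (le_max_right _ _).trans hh
    push_cast at e2
    have e3 : (n2 : ℝ) ≤ h' := by linarith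
    exact_mod_cast e3
  have hN2 : H61.Nrm K0 K1 Rm lam N (2 * (k / 1024)) β d1 P' l' t' L' h' q' r0 W' S := by
    refine ⟨⟨hN'.nex.ok, hN'.nex.hL, hN'.nex.lb, le_trans ?_ hN'.nex.ex⟩, hN'.str, hN'.t1, hN'.slb, hN'.nu, hN'.rm, hN'.r0q, hN'.qr0⟩
    have f1 : (β - d1) * h' * Real.log 2 ≤ (β - d2) * h' * Real.log 2 := by
      have := Real.log_nonneg (show (1 : ℝ) ≤ 2 by norm_num)
      have : d2 ≤ d1 := min_le_left _ _
      gcongr
    linarith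
  obtain ⟨Ω', _, Q, l'', t'', L'', h'', q'', r0', Rn, W'', S'', hh', hQ, hR⟩ := h2 Ω P' l' t' L' h' q' r0 W' S hh2 hN2
  have hb3 : n3 ≤ h'' := ((le_max_left _ _).trans (le_max_left _ _)).trans hh'
  have hb4 : n4 ≤ h'' := (((le_max_left _ _).trans (le_max_right _ _)).trans (le_max_left _ _)).trans hh'
  have hb5 : n5 ≤ h'' := (((le_max_right _ _).trans (le_max_right _ _)).trans (le_max_left _ _)).trans hh'
  have hb6 : n6 ≤ h'' := ((le_max_left _ _).trans (le_max_right _ _)).trans hh'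
  have hb7 : 1 ≤ h'' := ((le_max_right _ _).trans (le_max_right _ _)).trans hh'
  rcases hR with hR | hR
  · obtain ⟨a, r, A, ζ0, ζn, υ, E0, En, Y, q1, q2, q3, q4, q5, q6⟩ := h3 Ω' Q l'' t'' L'' h'' q'' r0' Rn W'' S'' hb3 hQ hR
    have q7 := h4 Ω' Q l'' t'' L'' h'' q'' r0' Rn W'' S'' hb4 hQ hR
    have q8 := htot ε Ω' Unit Q l'' t'' (fun _ => ()) L'' h'' q'' W'' hb7 hQ a r A q2 (fun ω hω => by
      obtain ⟨w1, w2, w3⟩ := q4 ω hω
      exact ⟨⟨w1.sh, w1.α2.trans (le_max_left _ _), w1.κ2.trans (le_max_left _ _), by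
        have hu : 0 ≤ (A ω).u2 := by rw [w2]; exact zero_le_one
        have hu1 : 0 ≤ (A ω).u1 := by rw [w3]; positivity
        have hcc : cA ≤ max cA 100 := le_max_left _ _
        obtain ⟨b1, b2, b3, b4, b5⟩ := w1.inn
        refine ⟨fun k => (b1 k).trans (mul_le_mul_of_nonneg_right hcc hu),
          fun k => (b2 k).trans (mul_le_mul_of_nonneg_right hcc hu),
          b3.trans (mul_le_mul_of_nonneg_right hcc (le_max_right _ _)),
          b4.trans (mul_le_mul_of_nonneg_right hcc hu1), b5.trans (mul_le_mul_of_nonneg_right hcc hu1)⟩⟩, w2, w3⟩)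
      ζ0 ζn υ E0 En Y
    have hDd : 0 ≤ N * (Dd Q l'' t'' (fun _ => ()) h'' - Dd Q l'' t'' (fun _ => ()) a) := by
      have := H864.Dd_mono Q l'' t'' (fun _ => ()) q2
      exact mul_nonneg (by linarith) (by linarith)
    have hhr : (0 : ℝ) < h'' := by exact_mod_cast hb7
    have hrq : (r : ℝ) ≤ q'' := by exact_mod_cast q3
    have habs : |(r : ℝ) - q''| = q'' - r := by rw [abs_sub_comm, abs_of_nonneg (by linarith)]
    rw [habs] at q8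
    have hKh : 8 * K < β₀ * h'' := by
      have g1 : 8 * K / β₀ < h'' := hn6.trans_le (by exact_mod_cast hb6)
      rw [div_lt_iff₀ hβpos] at g1
      linarith
    refine arith (lam := lam) (k := 2 * (k / 1024)) (β := β) (β0 := β₀) (b' := β + dm) (ε := ε) (η := η) (h := h'') (a := a)
      (X := (q'' : ℝ) - r) (R := (Rn : ℝ) - r) (I := mi Q l'' En E0) (K := K)
      (DN := N * (Dd Q l'' t'' (fun _ => ()) h'' - Dd Q l'' t'' (fun _ => ()) a))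
      (E := Stk.hc Q (fun ω => (A ω, fl1 a (t'' ω), ())) E0 + Stk.hc Q Y (fun ω => (W'' ω, fl1 h'' (t'' ω), ())) +
        Stk.hc Q (fun ω => (En ω, E0 ω)) (fun ω => (Y ω, W'' ω, fl1 h'' (t'' ω), ())))
      hη0 (by rw [hη]; linarith) (by linarith) hβ1 (by linarith) (by linarith) (by linarith) (Nat.cast_nonneg _) q1 hhr
      (by linarith) hKh hDd q5 q6 (by linarith)
  · exact h5 Ω' Q l'' t'' L'' h'' q'' r0' Rn W'' S'' hb5 hQ hR

end Vale.Agent.P106.U.S5
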