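import Vale.Agent.P106.U.S5.Exr
import Vale.Agent.P106.U.S3.F2

/-!
# P106 / U / S5 : the record of a run with exit by the time (helper611), over helper404's `S3.Run`

* `SwF R K a1 r1` : for a given ray and a given time to `a1` digits the functional of `W` is known to `r1` digits
  (helper425's field `sw`).
* `RunOk` : the record `R` with the numbers `p`, prices `g' gU`, light blocks `e κ₀`, and all relative inequalities; level `a1` of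
  `SwF` near `h`, level `a2` near `(1 - √θ) h` (425); sums over the caps
  `f2` (712); ADDENDUM 4 of 661, rulings 1-3 of 137.
* `RA` : run with exit by the time.
-/

set_option autoImplicit false

namespace Vale.Agent.P106.U.S5

open Vale.Agent.P127 Vale.Agent.P127.Stk Vale.Agent.P127.U Vale.Agent.P106.W Vale.Agent.P106.K Vale.Agent.P106.U
open Vale.Agent.P127.U.CellD (q2)

/-- the functional of `W` given the ray and the time to `a1` digits -/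
structure SwF {Ω : Type} [Fintype Ω] {τ υ : Type} (R : S3.Run Ω τ υ) (K : ℝ) (a1 r1 : ℕ) : Prop where
  p : ∀ ω ω', 0 < R.Q.w ω → 0 < R.Q.w ω' → R.ry ω = R.ry ω' → fl1 a1 (R.t ω) = fl1 a1 (R.t ω') →
    |R.C.p ω' - R.C.p ω| ≤ K * q2 r1
  ka : ∀ ω ω', 0 < R.Q.w ω → 0 < R.Q.w ω' → R.ry ω = R.ry ω' → fl1 a1 (R.t ω) = fl1 a1 (R.t ω') →
    |R.κ ω' - R.κ ω + (R.FW ω).al * (R.tW ω' - R.tW ω)| ≤ K * q2 r1

/-- **the record** -/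
structure RunOk (σ : Cst) (ε : ℝ) (ρ : Thr) (m B : ℕ) {Ω : Type} [Fintype Ω] (Q : Law Ω) (l : Ω → Ry) (t : Ω → ℝ)
    (L h q r0 Rn : ℕ) (W : Ω → Cbx) {τ υ : Type} (R : S3.Run Ω τ υ) (p : S3.Run.Num) (g' gU e κ₀ : ℝ) (a1 r1 : ℕ) : Prop where
  hm : R.m = m
  hL : R.L = L
  hh : R.h = h
  hq : R.q = q
  hr0 : R.r0 = r0
  hQ : R.Q = Q
  hry : R.ry = l
  ht : R.t = t
  hW : R.W = W
  /-- the last precision -/
  hRn : Rn = R.C.rk R.n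
  /-- margin of the cells (can be lowered), lookahead, margin of the second word -/
  hμ : R.C.μ = m * B
  hJ : p.J = ρ.J
  hs : 4 ≤ p.s ∧ p.s ≤ 10
  /-- the structures of S3 -/
  ok : R.Ok p ρ.K ρ.c' g' gU
  light : R.Light p e κ₀
  cap : R.Cap p B ε
  sw : SwF R ρ.K a1 r1
  /-- the numbers -/
  qr : (q : ℝ) ≤ r0 + (σ.K1 + 1) * h
  A1 : (p.A : ℝ) ≤ (1 - 4 * σ.δ1) * h
  A2 : (1 - 5 * σ.δ1) * h ≤ p.A
  QK1 : (p.QK : ℝ) ≤ q - 4 * σ.C1 * σ.δ1 * h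
  QK2 : q - 5 * σ.C1 * σ.δ1 * h ≤ p.QK
  B1 : (p.B₁ : ℝ) ≤ σ.δ1 * h
  QF2 : q - σ.C1 * σ.δ1 * h ≤ p.QF
  sw1 : (a1 : ℝ) ≤ (1 - 8 * σ.δ1) * h
  sw2 : (q : ℝ) ≤ r1 + 10 * σ.C1 * σ.δ1 * h
  sw3 : r1 ≤ q
  /-- the second level (`r2 = 0` if no precision is left) -/
  lev2 : ∃ a2 r2 : ℕ, (r2 = 0 ∨ SwF R ρ.K a2 r2) ∧ (a2 : ℝ) ≤ (1 - Real.sqrt σ.θ) * h ∧
    (q : ℝ) ≤ r2 + 10 * σ.C1 * Real.sqrt σ.θ * h ∧ r2 ≤ q
  /-- start and last time level -/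
  rm : 100 * (m * B) ≤ r0
  aA : R.C.a R.n ≤ p.A'
  /-- exit by the time -/
  ex : (1 - σ.θ) * h ≤ R.C.a R.n
  /-- the prices -/
  e0 : 0 ≤ e
  κ0 : 0 ≤ κ₀
  g'0 : 0 ≤ g'
  gU0 : 0 ≤ gU
  g'1 : g' ≤ ε * h
  gU1 : gU ≤ ε * h
  le : e ≤ ε ^ 2 * ρ.c' * σ.δ1 * h / (1000 * ρ.K ^ 8 * m)
  lg : κ₀ * ((4 * p.J + 1) * g') ≤ ε ^ 2 * ρ.c' * σ.δ1 * h / (1000 * ρ.K ^ 8 * m)
  lp : Real.log (1 / R.pw) ≤ ε * h
  /-- the threshold; the slope of the path is right on the whole support -/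
  c'e : ρ.c' ≤ ε
  kn0 : ∀ i ≤ R.n + p.J, ∀ ω, 0 < R.Q.w ω → |(R.C.F i ω).al - R.al i ω| * q2 (R.C.a i) ≤ ρ.K * q2 (R.C.rk i)
  /-- the sums over the caps (712) -/
  f2 : ∃ (π : Type) (bS bV : ℕ) (F : S3.Pf R π) (Vs Xs : Finset ℕ), S3.F2 R p ρ.K B bS bV F Vs Xs

/-- **record of a run with exit by the time** -/
def RA : RunP := fun σ ε ρ _ m B {Ω} _ Q l t L h q r0 Rn W _ =>
  ∃ (τ υ : Type) (R : S3.Run Ω τ υ) (p : S3.Run.Num) (g' gU e κ₀ : ℝ) (a1 r1 : ℕ),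
    RunOk σ ε ρ m B Q l t L h q r0 Rn W R p g' gU e κ₀ a1 r1

/-- **composition with the concrete records**; the remaining inputs are `PRun`, `PSat`, `PTop` -/
theorem pCmp_of' {N : ℝ} (hN : 2 ≤ N) (h1 : H61.PNrm) (h2 : PRun RA RR) (h3 : PSat RA) (h4 : PTop RA) : H652.PCmp N :=
  pCmp_of hN h1 h2 h3 h4 pExR

end Vale.Agent.P106.U.S5
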