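import Vale.Agent.P106.U.S5.Props
import Vale.Agent.P106.U.H459.ExitR
import Vale.Agent.P106.U.H523.TailTop

/-!
# P106 / U / S5 : the exit by the precision (helper611)

* `Bs.C1`, `Bs.C2` : constants of SUB and of the ends.
* `RR` : record of a run with exit by the precision at a level `a ≤ (1 - θ / 2) h`, in the form of 459's `PExit`, at the precision
  `q - g`, `g ≤ C2 δ1 h`.
* `nex_cut` : near-extremality of the label cut to `q - g` digits.
* `pExR : PExR RR`.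
-/

set_option autoImplicit false

namespace Vale.Agent.P106.U.S5

open Vale.Agent.P127 Vale.Agent.P127.Stk Vale.Agent.P127.U Vale.Agent.P106.W Vale.Agent.P106.K Vale.Agent.P106.U
open Vale.Agent.P106.U.H428 Vale.Agent.P106.U.H459

/-- constant of the ends -/
noncomputable def Bs.C2 (b : Bs) : ℝ := 100 * b.C1

/-- **record of a run with exit by the precision** -/
def RR : RunP := fun σ ε ρ _ _ _ {Ω} _ Q l t _ h q _ _ W _ =>
  ∃ (a w g : ℕ) (Wm : Ω → Cbx), a + w = h ∧ (a : ℝ) ≤ (1 - σ.θ / 2) * h ∧ g ≤ q ∧ (g : ℝ) ≤ σ.C2 * σ.δ1 * h ∧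
    (∀ ω, 0 < Q.w ω → W0 ρ.K (a + w) (q - g) (Wm ω) (l ω) (t ω) ∧ |(Fa (a + w) (Wm ω) (t ω)).α| ≤ 2 ^ a ∧
      Cl ρ.K 0 (q - g) 1 (W ω) (Wm ω) (bl (a + w) (l ω) (t ω))) ∧
    Stk.hc Q Wm (fun ω => (W ω, fl1 (a + w) (t ω), ())) ≤ (σ.C2 * σ.δ1 + ε) * h ∧
    Stk.hc Q (fun ω => sk a w (q - g) (Wm ω) (l ω) (t ω)) (fun ω => (l ω, fl1 a (t ω), ())) ≤ (σ.C2 * σ.δ1 + ε) * h

/-- the label cut to `R` digits -/
noncomputable def cut (R : ℕ) (W : Cbx) : Cbx := { W with u1 := (1 / 2 : ℝ) ^ R }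

/-- **cut of a near-extremal system** -/
theorem nex_cut {c lam N k β d d' : ℝ} (hc : 1 ≤ c) (h0 : 0 ≤ lam) (h1 : lam ≤ 1) (hk : 0 ≤ k) {Ω : Type} [Fintype Ω] {γ : Type}
    {P : Law Ω} {l : Ω → Ry} {t : Ω → ℝ} {C : Ω → γ} {L h q g : ℕ} {W : Ω → Cbx} (hne : NEx c lam N k β d P l t C L h q W)
    (hg : g ≤ q) (hd : (1 + k) * g ≤ (d' - d) * h) :
    NEx c lam N k β d' P l t C L h (q - g) (fun ω => cut (q - g) (W ω)) := by
  have hl2 : 0 < Real.log 2 := Real.log_pos (by norm_num)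
  have hhL := hne.hL
  have hpw : (1 / 2 : ℝ) ^ q ≤ (1 / 2 : ℝ) ^ (q - g) :=
    pow_le_pow_of_le_one (by norm_num) (by norm_num) (Nat.sub_le q g)
  refine ⟨hne.ok, by omega, fun ω hω => ?_, ?_⟩
  · obtain ⟨w1, w2, w3⟩ := hne.lb ω hω
    obtain ⟨⟨b, R, e1, e2, e3, e4⟩, e5, e6, ⟨i1, i2, i3, i4, i5⟩⟩ := w1
    have hb : b = 0 := by
      have : (1 / 2 : ℝ) ^ b = (1 / 2 : ℝ) ^ 0 := by rw [← e1, w2, pow_zero]
      exact H127.half_inj this
    have hcu : c * (W ω).u1 ≤ c * (1 / 2 : ℝ) ^ (q - g) := by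
      rw [w3]
      exact mul_le_mul_of_nonneg_left hpw (by linarith)
    refine ⟨⟨⟨b, q - g, e1, rfl, by omega, by omega⟩, e5, e6, ⟨i1, i2, i3, i4.trans hcu, i5.trans hcu⟩⟩, w2, rfl⟩
  · have a1 := H523.XX_change (c := c) h0 h1 hk le_rfl hc (P := P) (l := l) (t := t) (C := C) (L := L) (a := 0) (Nat.zero_le _)
      (P' := P) (π := id) (Stk.pr_id P) (fun _ : Ω => ()) (0, q - g) (0, q)
    simp only [id] at a1
    have a2 : XX c lam k 0 P l t C (fun _ => (0, q - g)) L 0 ≤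
        XX c lam k 0 P l t (fun ω => (C ω, ())) (fun _ => (0, q - g)) L 0 :=
      H875.XX_mono_C (by linarith) (Nat.zero_le _) h0 h1 hk le_rfl fun ω ω' _ _ e => by rw [e]
    have a3 : (|((0 : ℕ) : ℝ) - ((0 : ℕ) : ℝ)| + |((q - g : ℕ) : ℝ) - q|) = g := by
      rw [Nat.cast_sub hg]
      simp
    have a4 : XX c lam k 0 P l t C (fun _ => (0, q - g)) L 0 ≤
        XX c lam k 0 P l t C (fun _ => (0, q)) L 0 + k * g * Real.log 2 := by
      rw [a3] at a1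
      exact a2.trans a1
    have a5 := hne.ex
    -- the value
    have a6 : Stk.hc P l (fun ω => (W ω, fl1 h (t ω), C ω)) ≤
        Stk.hc P l (fun ω => (cut (q - g) (W ω), fl1 h (t ω), C ω)) :=
      Stk.hc_mono_right P l fun ω ω' _ _ e => by
        simp only [Prod.mk.injEq] at e ⊢
        exact ⟨by rw [e.1], e.2.1, e.2.2⟩
    have a7 : P.ex (fun ω => (3 + lam) * Real.log (cut (q - g) (W ω)).u2 + (1 - lam) * Real.log (cut (q - g) (W ω)).u1) =
        P.ex (fun ω => (3 + lam) * Real.log (W ω).u2 + (1 - lam) * Real.log (W ω).u1) + (1 - lam) * g * Real.log 2 := by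
      have b1 : P.ex (fun ω => (3 + lam) * Real.log (cut (q - g) (W ω)).u2 +
          (1 - lam) * Real.log (cut (q - g) (W ω)).u1) =
          P.ex (fun ω => ((3 + lam) * Real.log (W ω).u2 + (1 - lam) * Real.log (W ω).u1) + (1 - lam) * g * Real.log 2) := by
        refine P.ex_congr fun ω hω => ?_
        obtain ⟨-, w2, w3⟩ := hne.lb ω hω
        show (3 + lam) * Real.log (W ω).u2 + (1 - lam) * Real.log ((1 / 2 : ℝ) ^ (q - g)) = _
        rw [w3, H416.log_half, H416.log_half, Nat.cast_sub hg]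
        ring
      rw [b1, P.ex_add, P.ex_const]
    have a8 : val lam P l t C h W - (1 - lam) * g * Real.log 2 ≤
        val lam P l t C h (fun ω => cut (q - g) (W ω)) := by
      unfold val
      rw [a7]
      linarith
    have a9 : (1 + k) * g * Real.log 2 ≤ (d' - d) * h * Real.log 2 := mul_le_mul_of_nonneg_right hd hl2.le
    have a10 : 0 ≤ lam * g * Real.log 2 := by positivity
    nlinarith

/-- **no exit by the precision** -/
theorem pExR : PExR RR := by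
  intro b hb θ hθ hθ4
  obtain ⟨η, hη, hE⟩ := H459.pExit H523.pTail b.lam b.N b.β0 (θ / 2) hb.lam0 hb.lam1 hb.lamβ hb.β2 hb.N2 (by positivity)
  have hlam := hb.lam0
  have hC1 : 1 ≤ b.C1 := by
    unfold Bs.C1
    have : 0 ≤ 1000 / b.lam := by positivity
    linarith
  have hC2 : 0 < b.C2 := by
    unfold Bs.C2
    linarith
  refine ⟨η / (4 * b.C2), by positivity, ?_⟩
  intro δ1 hδ hδ1 σ hσ hσO
  refine ⟨min (η / 4) 1, by positivity, ?_⟩
  intro ε hε hε1 ρ hρ g hg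
  have hεa : ε ≤ η / 4 := hε1.trans (min_le_left _ _)
  have hεb : ε ≤ 1 := hε1.trans (min_le_right _ _)
  subst hσ
  have hg0 := hg.k0
  have hgk := hg.kε
  obtain ⟨h0, hh0⟩ := hE g.k g.β g.b' 100 ρ.K hg.k0 (by linarith) hg.β0 hg.βb (by linarith [hg.bε]) hg.fix (by norm_num) hρ.K1
  refine ⟨0, fun m B _ => ⟨h0, ?_⟩⟩
  intro Ω _ Q l t L h q r0 Rn W S hh hQ hR
  obtain ⟨a, w, gg, Wm, r1, r2, r3, r4, r5, r6, r7⟩ := hR
  subst r1
  have hh' : (0 : ℝ) ≤ ((a + w : ℕ) : ℝ) := Nat.cast_nonneg _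
  have hCδ : b.C2 * δ1 ≤ η / 4 := by
    have := mul_le_mul_of_nonneg_left hδ1 hC2.le
    refine this.trans (le_of_eq ?_)
    field_simp
  have r4' : (gg : ℝ) ≤ b.C2 * δ1 * ((a + w : ℕ) : ℝ) := r4
  have h4 : (gg : ℝ) ≤ η / 4 * ((a + w : ℕ) : ℝ) := r4'.trans (mul_le_mul_of_nonneg_right hCδ hh')
  have hcut := nex_cut (d' := η) (by norm_num) hb.lam0.le hb.lam1.le hg.k0.le hQ r3 (by
    have g1 : (1 + g.k) * gg ≤ 2 * gg := mul_le_mul_of_nonneg_right (by linarith) (Nat.cast_nonneg _)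
    have g2 : (η - ε) * ((a + w : ℕ) : ℝ) ≥ (3 * η / 4) * ((a + w : ℕ) : ℝ) :=
      mul_le_mul_of_nonneg_right (by linarith) hh'
    have g3 : 0 ≤ η * ((a + w : ℕ) : ℝ) := mul_nonneg hη.le hh'
    linarith)
  have e6 : (b.C2 * δ1 + ε) * ((a + w : ℕ) : ℝ) ≤ η * ((a : ℝ) + w) := by
    push_cast at hh' ⊢
    exact mul_le_mul_of_nonneg_right (by linarith) hh'
  refine hh0 Ω Unit Q l t (fun _ => ()) L a w (q - gg) (fun ω => cut (q - gg) (W ω)) Wm hcut hh (by push_cast at r2; exact r2)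
    (fun ω hω => ?_) ?_ (r7.trans e6)
  · obtain ⟨s1, s2, s3⟩ := r5 ω hω
    exact ⟨s1, s2, ⟨s3.n, s3.κ, s3.α, s3.g0, s3.g1⟩⟩
  · refine le_trans (Stk.hc_mono_right Q Wm fun ω ω' p p' e => ?_) (r6.trans e6)
    simp only [Prod.mk.injEq] at e ⊢
    obtain ⟨e1, e2, -⟩ := e
    refine ⟨?_, e2, trivial⟩
    obtain ⟨-, -, w3⟩ := hQ.lb ω p
    obtain ⟨-, -, w3'⟩ := hQ.lb ω' p'
    have e3 : (W ω).u1 = (W ω').u1 := by rw [w3, w3']
    unfold cut at e1
    rcases hW : W ω with ⟨x1, x2, x3, x4, x5, x6, x7, x8⟩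
    rcases hW' : W ω' with ⟨y1, y2, y3, y4, y5, y6, y7, y8⟩
    rw [hW, hW'] at e1 e3
    simp only [Cbx.mk.injEq] at e1 e3 ⊢
    exact ⟨e1.1, e3, e1.2.2⟩

end Vale.Agent.P106.U.S5
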